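import Vale.Agent.P109.F674.KS
import Mathlib.Geometry.Manifold.Diffeomorph
import Mathlib.Geometry.Manifold.Instances.Real
import Mathlib.MeasureTheory.Measure.Haar.InnerProductSpace
import Mathlib.MeasureTheory.Measure.WithDensity
import Mathlib.MeasureTheory.Measure.NullMeasurable
import Mathlib.MeasureTheory.Constructions.UnitInterval
import Mathlib.Dynamics.Ergodic.Ergodic

/-!
# Smooth positive-volume models, in the widest reading of the problem text
-/

open MeasureTheory Set
open scoped ContDiff Manifold

namespace Vale.Agent.P109L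

/-- Isomorphism modulo null sets: `F` is a bijection between conull sets `X₀`, `Y₀` which `T`, `S`
map into themselves; `F` and its inverse are measurable (preimages of measurable sets are measurable
for the completed measure; this holds in particular if they are measurable), `F` carries `μ` to `ν`
and `F ∘ T = S ∘ F` on `X₀`. -/
def Iso0 {X Y : Type*} [MeasurableSpace X] [MeasurableSpace Y]
    (μ : Measure X) (T : X → X) (ν : Measure Y) (S : Y → Y) : Prop :=
  ∃ (X₀ : Set X) (Y₀ : Set Y) (F : X → Y), μ X₀ᶜ = 0 ∧ ν Y₀ᶜ = 0 ∧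
    MapsTo T X₀ X₀ ∧ MapsTo S Y₀ Y₀ ∧ BijOn F X₀ Y₀ ∧
    (∀ B, MeasurableSet B → NullMeasurableSet (X₀ ∩ F ⁻¹' B) μ ∧ μ (X₀ ∩ F ⁻¹' B) = ν B) ∧
    (∀ A, MeasurableSet A → NullMeasurableSet (F '' (X₀ ∩ A)) ν) ∧
    ∀ x ∈ X₀, F (T x) = S (F x)

section

variable {d : ℕ} {H : Type} [TopologicalSpace H]
  (J : ModelWithCorners ℝ (EuclideanSpace ℝ (Fin d)) H)

/-- In the smooth chart `e` the measure `ν` is Lebesgue measure times a strictly positive density
which is smooth up to the boundary. -/
def DensityIn {M : Type} [TopologicalSpace M] [MeasurableSpace M] (ν : Measure M)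
    (e : OpenPartialHomeomorph M H) : Prop :=
  ∃ ρ : EuclideanSpace ℝ (Fin d) → ℝ,
    ContDiffOn ℝ ∞ ρ (e.extend J).target ∧ (∀ x ∈ (e.extend J).target, 0 < ρ x) ∧
    (ν.restrict e.source).map (e.extend J) =
      (volume.restrict (e.extend J).target).withDensity (fun x => ENNReal.ofReal (ρ x))

/-- `(X, μ, T)` has a smooth positive-volume model on a compact manifold with model `J`: a compact
Hausdorff `C^∞` manifold `M`, a Borel probability measure `ν` which near every point has a smooth
positive density in some smooth chart, a `C^∞` diffeomorphism `S` preserving `ν`, and an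
isomorphism modulo null sets. -/
def ModelOn {X : Type*} [MeasurableSpace X] (μ : Measure X) (T : X → X) : Prop :=
  ∃ (M : Type) (_ : TopologicalSpace M) (_ : ChartedSpace H M) (_ : MeasurableSpace M)
    (ν : Measure M) (S : M ≃ₘ^∞⟮J, J⟯ M),
    T2Space M ∧ CompactSpace M ∧ IsManifold J ∞ M ∧ BorelSpace M ∧ IsProbabilityMeasure ν ∧
      (∀ x : M, ∃ e ∈ IsManifold.maximalAtlas J ∞ M, x ∈ e.source ∧ DensityIn J ν e) ∧
      MeasurePreserving S ν ν ∧ Iso0 μ T ν S

end

/-- `(X, μ, T)` has a smooth positive-volume model, on a compact manifold of some finite dimension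
`d`, without boundary (modelled on `ℝ^d`) or with boundary (modelled on a half space). -/
def HasModel {X : Type*} [MeasurableSpace X] (μ : Measure X) (T : X → X) : Prop :=
  (∃ d : ℕ, ModelOn (𝓡 d) μ T) ∨ (∃ (d : ℕ) (_ : NeZero d), ModelOn (𝓡∂ d) μ T)

end Vale.Agent.P109L
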