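import Vale.Agent.P109L.Defs
import Vale.Agent.P109.F674.FactorModel

/-!
# From a model in the widest reading to a factor map
-/

set_option linter.all false

open MeasureTheory Set Filter
open scoped ContDiff Manifold

namespace Vale.Agent.P109L

open Vale.Agent.P109.Smooth

/-- an isomorphism modulo null sets gives a measurable factor map -/
theorem factor_of_iso0 {X Y : Type*} [MeasurableSpace X] [MeasurableSpace Y] [Nonempty X]
    [MeasurableSpace.CountablyGenerated X] {μ : Measure X} {T : X → X} {ν : Measure Y}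
    {S : Y → Y} (hS : MeasurePreserving S ν ν) (h : Iso0 μ T ν S) :
    ∃ π : Y → X, MeasurePreserving π ν μ ∧ ∀ᵐ y ∂ν, π (S y) = T (π y) := by
  obtain ⟨X₀, Y₀, F, hX, hY, hT, hSY, hF, hB, hA, hc⟩ := h
  set p : Y → X := Function.invFunOn F X₀ with hp
  have hYae : ∀ᵐ y ∂ν, y ∈ Y₀ := by
    rw [ae_iff]
    exact hY
  have p1 : ∀ y ∈ Y₀, p y ∈ X₀ ∧ F (p y) = y := fun y hy =>
    Function.invFunOn_pos (hF.surjOn hy)
  have p2 : ∀ A : Set X, p ⁻¹' A =ᵐ[ν] F '' (X₀ ∩ A) := by
    intro A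
    refine eventuallyEq_set.2 ?_
    filter_upwards [hYae] with y hy
    constructor
    · intro h
      exact ⟨p y, ⟨(p1 y hy).1, h⟩, (p1 y hy).2⟩
    · rintro ⟨x, ⟨hx, hxA⟩, hxy⟩
      have : p y = x := hF.injOn (p1 y hy).1 hx ((p1 y hy).2.trans hxy.symm)
      show p y ∈ A
      rwa [this]
  have pn : NullMeasurable p ν := fun A hAm => (hA A hAm).congr (p2 A).symm
  have pm : AEMeasurable p ν := pn.aemeasurable
  have p3 : ∀ A : Set X, MeasurableSet A → ν (F '' (X₀ ∩ A)) = μ A := by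
    intro A hAm
    obtain ⟨B1, h1, m1, e1⟩ := (hA A hAm).exists_measurable_subset_ae_eq
    obtain ⟨B2, h2, m2, e2⟩ := (hA A hAm).exists_measurable_superset_ae_eq
    have hX0 : μ (X₀ ∩ A) = μ A := by
      exact measure_congr (inter_ae_eq_right_of_ae_eq_univ (ae_eq_univ.2 hX))
    apply le_antisymm
    · rw [← measure_congr e1, ← (hB B1 m1).2, ← hX0]
      refine measure_mono ?_
      rintro x ⟨hx, hxB⟩
      obtain ⟨x', ⟨hx', hxA⟩, hxx⟩ := h1 hxB
      exact ⟨hx, by rwa [← hF.injOn hx' hx hxx]⟩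
    · rw [← measure_congr e2, ← (hB B2 m2).2, ← hX0]
      refine measure_mono ?_
      rintro x ⟨hx, hxA⟩
      exact ⟨hx, h2 ⟨x, ⟨hx, hxA⟩, rfl⟩⟩
  have e0 : p =ᵐ[ν] pm.mk p := pm.ae_eq_mk
  refine ⟨pm.mk p, ⟨pm.measurable_mk, ?_⟩, ?_⟩
  · rw [← Measure.map_congr e0]
    ext A hAm
    rw [Measure.map_apply_of_aemeasurable pm hAm, measure_congr (p2 A), p3 A hAm]
  · filter_upwards [hYae, e0, hS.quasiMeasurePreserving.ae_eq e0] with y hy h1 h2
    have h3 : p (S y) = T (p y) := by
      refine hF.injOn (p1 _ (hSY hy)).1 (hT (p1 y hy).1) ?_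
      rw [(p1 _ (hSY hy)).2, hc _ (p1 y hy).1, (p1 y hy).2]
    rw [← h1, ← h3]
    exact h2.symm

section

variable {d : ℕ} {H : Type} [TopologicalSpace H]
  {J : ModelWithCorners ℝ (EuclideanSpace ℝ (Fin d)) H}

/-- the charted space structure given by a covering family of charts -/
@[reducible] noncomputable def rechart {M : Type} [TopologicalSpace M]
    (A : Set (OpenPartialHomeomorph M H)) (h : ∀ x : M, ∃ e ∈ A, x ∈ e.source) :
    ChartedSpace H M where
  atlas := A
  chartAt x := (h x).choose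
  mem_chart_source x := (h x).choose_spec.2
  chart_mem_atlas x := (h x).choose_spec.1

theorem rechart_manifold {M : Type} [TopologicalSpace M] [c : ChartedSpace H M]
    {A : Set (OpenPartialHomeomorph M H)} (h : ∀ x : M, ∃ e ∈ A, x ∈ e.source)
    (hA : A ⊆ IsManifold.maximalAtlas J ∞ M) :
    @IsManifold ℝ _ _ _ _ H _ J ∞ M _ (rechart A h) :=
  letI := rechart A h
  { compatible := fun he he' =>
      @IsManifold.compatible_of_mem_maximalAtlas ℝ _ _ _ _ H _ J ∞ M _ c _ _ (hA he) (hA he') }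

theorem rechart_smooth {M : Type} [TopologicalSpace M] [c : ChartedSpace H M]
    {A : Set (OpenPartialHomeomorph M H)} (h : ∀ x : M, ∃ e ∈ A, x ∈ e.source)
    (hA : A ⊆ IsManifold.maximalAtlas J ∞ M) {f : M → M} (hf : ContMDiff J J ∞ f) :
    @ContMDiff ℝ _ _ _ _ H _ J M _ (rechart A h) _ _ _ H _ J M _ (rechart A h) ∞ f := by
  intro x
  obtain ⟨e, he, hx⟩ := h x
  obtain ⟨e', he', hy⟩ := h (f x)
  have h1 := (contMDiffWithinAt_iff_of_mem_maximalAtlas (s := univ) (hA he) (hA he') hx hy).1 (hf x)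
  have hm := rechart_manifold h hA
  letI := rechart A h
  exact (contMDiffWithinAt_iff_of_mem_maximalAtlas (s := univ)
    (IsManifold.subset_maximalAtlas he) (IsManifold.subset_maximalAtlas he') hx hy).2 h1

theorem diffeo_of {M : Type} [TopologicalSpace M] [c : ChartedSpace H M] (S : M ≃ M)
    (h1 : ContMDiff J J ∞ S) (h2 : ContMDiff J J ∞ S.symm) : IsDiffeo J M S :=
  ⟨⟨S, h1, h2⟩, rfl⟩

/-- a model in the widest reading is a factor in the sense of the starting files -/
theorem isFactorOn_of_modelOn {X : Type*} [MeasurableSpace X] [Nonempty X]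
    [MeasurableSpace.CountablyGenerated X] {μ : Measure X} {T : X → X} (h : ModelOn J μ T) :
    IsFactorOn J μ T := by
  obtain ⟨M, _, c, _, ν, S, h2, hc, hm, hB, hν, hv, hS, hI⟩ := h
  have hH : SecondCountableTopology H := J.secondCountableTopology
  have hM : SecondCountableTopology M := ChartedSpace.secondCountable_of_sigmaCompact H M
  set A : Set (OpenPartialHomeomorph M H) :=
    {e | e ∈ IsManifold.maximalAtlas J ∞ M ∧ DensityIn J ν e} with hAdef
  have h : ∀ x : M, ∃ e ∈ A, x ∈ e.source := fun x => by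
    obtain ⟨e, he, hx, hd⟩ := hv x
    exact ⟨e, ⟨he, hd⟩, hx⟩
  have hA : A ⊆ IsManifold.maximalAtlas J ∞ M := fun e he => he.1
  have s1 := rechart_smooth h hA S.contMDiff
  have s2 := rechart_smooth h hA S.symm.contMDiff
  have hm' := rechart_manifold h hA
  obtain ⟨π, hπ, hae⟩ := factor_of_iso0 hS hI
  refine ⟨M, inferInstance, rechart A h, inferInstance, ν, S, ?_, hB, hν, fun e he => he.2, ?_, hS,
    π, hπ, hae⟩
  · letI := rechart A h
    exact ⟨h2, hM, hc, hm'⟩
  · exact diffeo_of (c := rechart A h) S.toEquiv s1 s2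

end

theorem isSmoothFactor_of_hasModel {X : Type*} [MeasurableSpace X] [Nonempty X]
    [MeasurableSpace.CountablyGenerated X] {μ : Measure X} {T : X → X} (h : HasModel μ T) :
    IsSmoothFactor μ T := by
  rcases h with ⟨d, hd⟩ | ⟨d, hd0, hd⟩
  · exact Or.inl ⟨d, isFactorOn_of_modelOn hd⟩
  · exact Or.inr ⟨d, hd0, isFactorOn_of_modelOn hd⟩

end Vale.Agent.P109L
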