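import Vale.Agent.P109L.Fac
import Vale.Agent.P130.H454.Iso

/-!
# Transport to the unit interval and to its completion
-/

set_option linter.all false

open MeasureTheory Set Filter
open scoped ContDiff Manifold ENNReal

namespace Vale.Agent.P109L

open Vale.Agent.P109.Smooth Vale.Agent.P109.KS

theorem ks_le {X Y : Type} [MeasurableSpace X] [MeasurableSpace Y] {μ : Measure X} {T : X → X}
    {ν : Measure Y} {S : Y → Y}
    (h : ∀ (k : ℕ) (f : Y → Fin k), Measurable f → ∃ g : X → Fin k, Measurable g ∧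
      ∀ n a, μ (name T g n ⁻¹' {a}) = ν (name S f n ⁻¹' {a})) :
    ksEntropy ν S ≤ ksEntropy μ T := by
  unfold ksEntropy
  refine iSup_le fun k => iSup_le fun f => iSup_le fun hf => ?_
  obtain ⟨g, hg, he⟩ := h k f hf
  refine le_trans (le_of_eq ?_) (le_iSup₂_of_le k g (le_iSup_of_le hg le_rfl))
  congr 1
  funext n
  have : shannon ν (name S f n) = shannon μ (name T g n) := by
    unfold shannon
    refine Finset.sum_congr rfl fun a _ => ?_
    rw [Measure.real, Measure.real, he n a]
  rw [this]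

/-- conjugation by a measure preserving isomorphism -/
theorem move {X Y : Type} [MeasurableSpace X] [MeasurableSpace Y] {μ : Measure X} {ν : Measure Y}
    (φ : X ≃ᵐ Y) (hφ : MeasurePreserving φ μ ν) (T : X ≃ᵐ X) (he : Ergodic T μ)
    (hk : ksEntropy μ T = 0) (hn : ¬ IsSmoothFactor μ T) :
    ∃ S : Y ≃ᵐ Y, Ergodic S ν ∧ ksEntropy ν S = 0 ∧ ¬ IsSmoothFactor ν S := by
  set S : Y ≃ᵐ Y := (φ.symm.trans T).trans φ with hS
  have hsc : Function.Semiconj φ T S := fun x => by simp [hS]
  refine ⟨S, hφ.ergodic_conjugate_iff.2 he, ?_, ?_⟩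
  · refine le_antisymm (le_trans (ks_le fun k f hf => ⟨f ∘ φ, hf.comp φ.measurable, ?_⟩) hk.le)
      bot_le
    intro n a
    rw [← hφ.measure_preimage_equiv]
    congr 1
    ext x
    have : name T (f ∘ φ) n x = name S f n (φ x) := by
      funext i
      simp only [name, Function.comp]
      rw [(hsc.iterate_right i) x]
    simp only [mem_preimage, this]
  · have key : ∀ {d : ℕ} {H : Type} [TopologicalSpace H]
        {J : ModelWithCorners ℝ (EuclideanSpace ℝ (Fin d)) H},
        IsFactorOn J ν S → IsFactorOn J μ T := by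
      rintro d H _ J ⟨M, i1, i2, i3, m, R, h1, h2, h3, h4, h5, h6, π, hπ, hae⟩
      refine ⟨M, i1, i2, i3, m, R, h1, h2, h3, h4, h5, h6, φ.symm ∘ π, (hφ.symm φ).comp hπ, ?_⟩
      filter_upwards [hae] with y hy
      simp [hy, hS]
    rintro (⟨d, hd⟩ | ⟨d, hd0, hd⟩)
    · exact hn (Or.inl ⟨d, key hd⟩)
    · exact hn (Or.inr ⟨d, hd0, key hd⟩)

/-- a measure preserving isomorphism acts on the completed space -/
def compl {X : Type} [MeasurableSpace X] {μ : Measure X} (T : X ≃ᵐ X)
    (hT : MeasurePreserving T μ μ) : NullMeasurableSpace X μ ≃ᵐ NullMeasurableSpace X μ where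
  toEquiv := T.toEquiv
  measurable_toFun := fun _ hs => NullMeasurableSet.preimage hs hT.quasiMeasurePreserving
  measurable_invFun := fun _ hs =>
    NullMeasurableSet.preimage hs (hT.symm T).quasiMeasurePreserving

theorem compl_ergodic {X : Type} [MeasurableSpace X] {μ : Measure X} (T : X ≃ᵐ X)
    (he : Ergodic T μ) : Ergodic (compl T he.toMeasurePreserving) μ.completion := by
  refine ⟨⟨(compl T he.toMeasurePreserving).measurable, ?_⟩, ⟨fun s hs h => ?_⟩⟩
  · ext s hs
    rw [Measure.map_apply (compl T he.toMeasurePreserving).measurable hs]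
    exact he.toMeasurePreserving.measure_preimage hs
  · exact he.quasiErgodic.aeconst_set₀ hs (EventuallyEq.of_eq h)

theorem compl_ks {X : Type} [MeasurableSpace X] {μ : Measure X} (T : X ≃ᵐ X)
    (hT : MeasurePreserving T μ μ) :
    ksEntropy μ.completion (compl T hT) ≤ ksEntropy μ T := by
  refine ks_le fun k f hf => ?_
  have h1 : NullMeasurable (α := X) f μ := hf
  have h2 : AEMeasurable (α := X) f μ := h1.aemeasurable
  refine ⟨h2.mk f, h2.measurable_mk, fun n a => ?_⟩
  have h3 : ∀ᵐ x ∂μ, ∀ i : Fin n, f (T^[i] x) = h2.mk f (T^[i] x) :=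
    ae_all_iff.2 fun i => (hT.iterate i).quasiMeasurePreserving.ae_eq h2.ae_eq_mk
  refine measure_congr (eventuallyEq_set.2 ?_)
  filter_upwards [h3] with x hx
  have : name T (h2.mk f) n x = name (compl T hT) f n x := funext fun i => (hx i).symm
  show name T (h2.mk f) n x = a ↔ name (compl T hT) f n x = a
  rw [this]

theorem compl_model {X : Type} [MeasurableSpace X] {μ : Measure X} (T : X ≃ᵐ X)
    (hT : MeasurePreserving T μ μ) (h : HasModel μ.completion (compl T hT)) : HasModel μ T := by
  have key : ∀ {d : ℕ} {H : Type} [TopologicalSpace H]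
      {J : ModelWithCorners ℝ (EuclideanSpace ℝ (Fin d)) H},
      ModelOn J μ.completion (compl T hT) → ModelOn J μ T := by
    rintro d H _ J ⟨M, i1, i2, i3, m, R, h1, h2, h3, h4, h5, h6, h7, X₀, Y₀, F, a1, a2, a3, a4, a5,
      a6, a7, a8⟩
    refine ⟨M, i1, i2, i3, m, R, h1, h2, h3, h4, h5, h6, h7, X₀, Y₀, F, a1, a2, a3, a4, a5,
      fun B hB => ⟨?_, (a6 B hB).2⟩, fun A hA => a7 A hA.nullMeasurableSet, a8⟩
    exact (a6 B hB).1.measurable_of_complete
  rcases h with ⟨d, hd⟩ | ⟨d, hd0, hd⟩
  · exact Or.inl ⟨d, key hd⟩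
  · exact Or.inr ⟨d, hd0, key hd⟩

/-- the final transport -/
theorem final_of {X : Type} [MeasurableSpace X] [StandardBorelSpace X] {μ : Measure X}
    [IsProbabilityMeasure μ] (T : X ≃ᵐ X) (ha : ∀ x, μ {x} = 0) (he : Ergodic T μ)
    (hk : ksEntropy μ T = 0) (hn : ¬ IsSmoothFactor μ T) :
    (∃ S : unitInterval ≃ᵐ unitInterval,
      Ergodic S volume ∧ ksEntropy volume S = 0 ∧ ¬ HasModel volume S) ∧
    ∃ S : NullMeasurableSpace unitInterval volume ≃ᵐ NullMeasurableSpace unitInterval volume,
      Ergodic S (volume : Measure unitInterval).completion ∧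
        ksEntropy (volume : Measure unitInterval).completion S = 0 ∧
        ¬ HasModel (volume : Measure unitInterval).completion S := by
  obtain ⟨φ, hφ⟩ := P130.H454.exists_equiv μ (volume : Measure unitInterval) ha
    fun y => measure_singleton y
  obtain ⟨S, h1, h2, h3⟩ := move φ hφ T he hk hn
  have h4 : ¬ HasModel volume S := fun h => h3 (isSmoothFactor_of_hasModel h)
  exact ⟨⟨S, h1, h2, h4⟩, compl S h1.toMeasurePreserving, compl_ergodic S h1,
    le_antisymm ((compl_ks S _).trans h2.le) bot_le, fun h => h4 (compl_model S _ h)⟩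

end Vale.Agent.P109L
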